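import Crest.Agent.N325.Bf.Walk

/-!
# Row 325 (helper13): one pass of the butterfly (one digit)
-/

set_option autoImplicit false

namespace Crest.Agent.N325.Bf

open Finset

/-- item: oriented edge, positions `A`, `B`, walk from `A` to the tail, walk from the head to `B` -/
abbrev It : Type := ℕ × ℕ × ℕ × List ℕ × List ℕ

/-- the physical walk from `A` to `B` -/
def It.w (x : It) : List ℕ := x.2.2.2.1 ++ x.1 :: x.2.2.2.2

/-- state of a pass: representatives (remaining capacity, target, reversed walk), use counters,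
chosen edges, alive items (current, original), failed items (original) -/
abbrev PS : Type := Arr (ℕ × ℕ × List ℕ) × Arr ℕ × List ℕ × List (It × It) × List It

/-- parameters `(n, b, p, θ, Bud)` -/
abbrev PP : Type := ℕ × ℕ × ℕ × ℕ × ℕ

/-- the item chooses itself or fails -/
def choose (vx : Arr ℕ) (th bud key : ℕ) (x : It × It) (s : PS) : R PS :=
  appL x.1.2.2.2.1 (x.1.1 :: x.1.2.2.2.2) >>= fun w =>
  anyP (fun o => decide (bud ≤ s.2.1.get (vx.get o) * th ∨ bud ≤ s.2.1.get (vx.get (rv o)) * th)) w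
    >>= fun bl =>
  if bl = true then pure (s.1, s.2.1, s.2.2.1, s.2.2.2.1, x.2 :: s.2.2.2.2) else
    rvApp w [] >>= fun rw => addUse vx w s.2.1 >>= fun u => appL rw x.1.2.2.2.1 >>= fun ra =>
      pure (s.1.set key (th - 1, x.1.2.2.1, rw), u, x.1.1 :: s.2.2.1,
        ((x.1.1, x.1.2.2.1, x.1.2.2.1, ra, x.1.2.2.2.2), x.2) :: s.2.2.2.1, s.2.2.2.2)

/-- one item -/
def stepIt (vx nu cls : Arr ℕ) (q : PP) (x : It × It) (s : PS) : R PS :=
  if nu.get x.1.2.1 / q.2.2.1 % q.2.1 = nu.get x.1.2.2.1 / q.2.2.1 % q.2.1 then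
    pure (s.1, s.2.1, s.2.2.1, x :: s.2.2.2.1, s.2.2.2.2)
  else
    nat ((cls.get x.1.1 * q.1 + nu.get x.1.2.1) * q.2.1 + nu.get x.1.2.2.1 / q.2.2.1 % q.2.1)
      >>= fun key =>
    if 0 < (s.1.get key).1 then
      appL (s.1.get key).2.2 x.1.2.2.2.1 >>= fun ra =>
        pure (s.1.set key ((s.1.get key).1 - 1, (s.1.get key).2), s.2.1, s.2.2.1,
          ((x.1.1, (s.1.get key).2.1, x.1.2.2.1, ra, x.1.2.2.2.2), x.2) :: s.2.2.2.1, s.2.2.2.2)
    else choose vx q.2.2.2.1 q.2.2.2.2 key x s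

/-- the fixed data -/
structure Ctx where
  vx : ℕ → ℕ
  nu : ℕ → ℕ
  cls : ℕ → ℕ
  S : ℕ → Prop
  Old : ℕ → ℕ → Prop
  n : ℕ
  b : ℕ
  La : ℕ

structure Ctx.Ok (C : Ctx) : Prop where
  lt : ∀ v, C.S v → C.nu v < C.n
  inj : ∀ u v, C.S u → C.S v → C.nu u = C.nu v → u = v
  old : ∀ c o, C.Old c o → C.Old c (rv o)
  cl : ∀ o, C.cls (rv o) = C.cls o
  bpos : 0 < C.b

/-- edges allowed in a walk of class `c` -/
def Ctx.Al (C : Ctx) (H : List ℕ) (c o : ℕ) : Prop :=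
  C.Old c o ∨ (C.cls o = c ∧ ∃ x ∈ H, x / 2 = o / 2)

theorem Ctx.Al.mono {C : Ctx} {H H' : List ℕ} {c o : ℕ} (h : C.Al H c o) (k : ∀ x ∈ H, x ∈ H') :
    C.Al H' c o := h.imp id fun ⟨a, x, b, e⟩ => ⟨a, x, k x b, e⟩

theorem Ctx.Al.rv {C : Ctx} (hC : C.Ok) {H : List ℕ} {c o : ℕ} (h : C.Al H c o) :
    C.Al H c (rv o) :=
  h.imp (hC.old c o) fun ⟨a, x, b, e⟩ => ⟨(hC.cl o).trans a, x, b, by rw [rv_div]; exact e⟩

/-- a well formed item with a physical walk of length at most `len` -/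
structure Ctx.It (C : Ctx) (H : List ℕ) (len : ℕ) (x : It) : Prop where
  wa : Wk C.vx x.2.1 x.2.2.2.1 (C.vx x.1)
  wb : Wk C.vx (C.vx (rv x.1)) x.2.2.2.2 x.2.2.1
  sa : C.S x.2.1
  sb : C.S x.2.2.1
  al : ∀ o, o ∈ x.2.2.2.1 ∨ o ∈ x.2.2.2.2 → C.Al H (C.cls x.1) o
  cl : C.cls x.1 < C.La
  len : x.w.length ≤ len

theorem Ctx.It.mono {C : Ctx} {H H' : List ℕ} {a a' : ℕ} {x : Bf.It} (h : C.It H a x)
    (k : ∀ x ∈ H, x ∈ H') (e : a ≤ a') : C.It H' a' x :=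
  ⟨h.wa, h.wb, h.sa, h.sb, fun o m => (h.al o m).mono k, h.cl, h.len.trans e⟩

theorem Ctx.It.wk {C : Ctx} {H : List ℕ} {a : ℕ} {x : Bf.It} (h : C.It H a x) :
    Wk C.vx x.2.1 x.w x.2.2.1 := h.wa.append ⟨rfl, h.wb⟩

/-- a representative -/
def Ctx.Rep (C : Ctx) (H : List ℕ) (len p key : ℕ) (r : ℕ × List ℕ) : Prop :=
  ∃ A c d, key = (c * C.n + C.nu A) * C.b + d ∧ C.S A ∧ d < C.b ∧ C.S r.1 ∧ Wk C.vx r.1 r.2 A ∧
    (∀ o ∈ r.2, C.Al H c o) ∧ r.2.length ≤ len ∧ C.nu r.1 % p = C.nu A % p ∧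
    C.nu r.1 / p % C.b = d

/-- load of a list of items at `v` -/
def ld (vx : ℕ → ℕ) (v : ℕ) (l : List (It × It)) : ℕ := (l.map fun x => cnt vx v x.1.w).sum

@[simp] theorem ld_nil (vx : ℕ → ℕ) (v : ℕ) : ld vx v [] = 0 := rfl
@[simp] theorem ld_cons (vx : ℕ → ℕ) (v : ℕ) (x : It × It) (l : List (It × It)) :
    ld vx v (x :: l) = cnt vx v x.1.w + ld vx v l := by simp [ld]
@[simp] theorem ld_append (vx : ℕ → ℕ) (v : ℕ) (l m : List (It × It)) :
    ld vx v (l ++ m) = ld vx v l + ld vx v m := by simp [ld]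

/-- invariant of a pass; `dn` = the items already treated -/
structure PI (C : Ctx) (len p th bud : ℕ) (H0 : List ℕ) (F0 : List It) (dn : List (It × It))
    (s : PS) : Prop where
  al : ∀ x ∈ s.2.2.2.1, C.It s.2.2.1 (2 * len) x.1 ∧ x.1.1 = x.2.1 ∧
    C.nu x.1.2.1 % (p * C.b) = C.nu x.1.2.2.1 % (p * C.b)
  pm : (s.2.2.2.1.map Prod.snd ++ s.2.2.2.2).Perm (dn.map Prod.snd ++ F0)
  rp : ∀ k, (s.1.get k).1 ≤ th ∧ (0 < (s.1.get k).1 → C.Rep s.2.2.1 len p k (s.1.get k).2)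
  h0 : ∀ x ∈ H0, x ∈ s.2.2.1
  hs : ∀ x ∈ s.2.2.1, x ∈ H0 ∨ ∃ y ∈ dn, x = y.2.1
  ch : th * s.2.2.1.length ≤
    th * H0.length + dn.length + ∑ k ∈ range (C.La * C.n * C.b), (s.1.get k).1
  us : ∃ U : List ℕ, (∀ v, s.2.1.get v = U.count v) ∧
    U.length + 2 * len * H0.length ≤ 2 * len * s.2.2.1.length ∧
    s.2.2.2.2.length ≤ F0.length +
      ∑ v ∈ U.toFinset.filter (fun v => bud ≤ U.count v * th), ld C.vx v dn
  ub : ∀ v, s.2.1.get v * th ≤ bud + 2 * len * th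
  oc : ∀ v, ld C.vx v s.2.2.2.1 +
    ∑ k ∈ range (C.La * C.n * C.b), (s.1.get k).1 * cnt C.vx v (s.1.get k).2.2 ≤
      ld C.vx v dn + th * s.2.1.get v

theorem sum_set {β : Type} (f : β → ℕ) (a : Arr β) {N k : ℕ} (hk : k < N) (y : β) :
    ∑ j ∈ range N, f ((a.set k y).get j) + f (a.get k) = ∑ j ∈ range N, f (a.get j) + f y := by
  have hk' : k ∈ range N := mem_range.2 hk
  rw [← add_sum_erase _ _ hk', ← add_sum_erase _ (fun j => f (a.get j)) hk', Arr.get_set_self,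
    sum_congr rfl fun j hj => by rw [Arr.get_set_ne a (ne_of_mem_erase hj)]]
  omega

theorem key_lt {c a d La n b : ℕ} (hc : c < La) (ha : a < n) (hd : d < b) :
    (c * n + a) * b + d < La * n * b := by
  have h1 : c * n + a + 1 ≤ La * n := by nlinarith
  nlinarith

theorem key_inj {c a d c' a' d' n b : ℕ} (ha : a < n) (hd : d < b) (ha' : a' < n) (hd' : d' < b)
    (e : (c * n + a) * b + d = (c' * n + a') * b + d') : c = c' ∧ a = a' ∧ d = d' := by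
  have h1 : ∀ x y m : ℕ, y < m → (x * m + y) / m = x ∧ (x * m + y) % m = y := fun x y m h =>
    ⟨by rw [mul_comm, Nat.mul_add_div (by omega), Nat.div_eq_of_lt h, add_zero],
      by rw [mul_comm, Nat.mul_add_mod, Nat.mod_eq_of_lt h]⟩
  have e1 : c * n + a = c' * n + a' := by
    rw [← (h1 (c * n + a) _ _ hd).1, e, (h1 _ _ _ hd').1]
  exact ⟨by rw [← (h1 c _ _ ha).1, e1, (h1 _ _ _ ha').1],
    by rw [← (h1 c _ _ ha).2, e1, (h1 _ _ _ ha').2],
    by rw [← (h1 (c * n + a) _ _ hd).2, e, (h1 _ _ _ hd').2]⟩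

theorem mod_step {x y p b : ℕ} (h : x % p = y % p) (k : x / p % b = y / p % b) :
    x % (p * b) = y % (p * b) := by rw [Nat.mod_mul, Nat.mod_mul, h, k]

theorem ld_mono_sum {vx : ℕ → ℕ} {dn : List (It × It)} {x : It × It} {A B : Finset ℕ}
    (h : A ⊆ B) : ∑ v ∈ A, ld vx v dn ≤ ∑ v ∈ B, ld vx v (dn ++ [x]) :=
  (sum_le_sum_of_subset h).trans (sum_le_sum fun v _ => by simp)

end Crest.Agent.N325.Bf
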