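import Crest.Agent.N325.Lst.ListImpl
import Crest.Agent.N325.Bf.Pass

/-!
# Row 325: walks and one item of the butterfly are implementable (helper12)
-/

set_option autoImplicit false

namespace Crest.Agent.N325.Bf

variable {α : Type} [Rp α] {σ : Bool}

@[fun_prop] theorem pu_rv {o : α → ℕ} (h : Pu σ o) : Pu σ fun a => rv (o a) := by
  have h' := h.ar
  unfold rv
  exact Pu.ite (Pu.eq (h'.mod (Pu.const 2)) (Pu.const 0)) (h.add_const 1) (h.sub (Pu.const 1))

@[fun_prop] theorem impl_rvApp {l m : α → List ℕ} (hl : Pu true l) (hm : Pu true m) :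
    Impl fun a => rvApp (l a) (m a) := by
  unfold rvApp; impl

@[fun_prop] theorem pu_inc {x : α → Arr ℕ} {i : α → ℕ} (hx : Pu true x) (hi : Pu false i) :
    Pu true fun a => inc (x a) (i a) := by
  unfold inc; impl

@[fun_prop] theorem impl_addUse {vx x : α → Arr ℕ} {l : α → List ℕ} (hv : Pu true vx)
    (hl : Pu true l) (hx : Pu true x) : Impl fun a => addUse (vx a) (l a) (x a) := by
  unfold addUse; impl

@[fun_prop] theorem impl_choose {vx : α → Arr ℕ} {th bud key : α → ℕ} {x : α → It × It}
    {s : α → PS} (hv : Pu true vx) (h1 : Pu true th) (h2 : Pu true bud) (h3 : Pu true key)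
    (hx : Pu true x) (hs : Pu true s) :
    Impl fun a => choose (vx a) (th a) (bud a) (key a) (x a) (s a) := by
  unfold choose; impl

@[fun_prop] theorem impl_stepIt {vx nu cls : α → Arr ℕ} {q : α → PP} {x : α → It × It}
    {s : α → PS} (hv : Pu true vx) (h1 : Pu true nu) (h2 : Pu true cls) (h3 : Pu true q)
    (hx : Pu true x) (hs : Pu true s) :
    Impl fun a => stepIt (vx a) (nu a) (cls a) (q a) (x a) (s a) := by
  unfold stepIt; impl

end Crest.Agent.N325.Bf
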