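import Crest.Agent.N325.Bf.Main
import Crest.Agent.N325.Bf.Impl0
import Crest.Agent.N325.Ds.Defs

/-!
# Row 325: the butterfly is the static box of the batch spanner (helper12)
-/

set_option autoImplicit false

namespace Crest.Agent.N325.Bf

variable {g : Gl}

/-- the box: classes `cls` (fewer than `La`), base `b`, `T` digits -/
def box (cls : Arr ℕ) (La b T : ℕ) (i : Ds.BI) : R Ds.BO :=
  bf i.1 i.2.1 cls (i.2.2.1, b, T, i.2.2.2.1, i.2.2.2.2.1) La i.2.2.2.2.2

/-- bound on the number of rounds -/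
def rounds (k : Ds.Cs) : ℕ := ((k.nV + 1) * k.DD).size

/-- admissible length after `lam` -/
def boxNx (T lam P : ℕ) : Prop := 2 ^ T * (lam + 1) ≤ P

/-- loss in congestion -/
def boxGam (k : Ds.Cs) (T P : ℕ) : ℕ := (1 + 10 * T * P) ^ T * rounds k + 2

theorem boxSpec {cls : Arr ℕ} {La b T : ℕ} {k : Ds.Cs} (hcl : ∀ o, cls.get (rv o) = cls.get o)
    (hLa : ∀ o, cls.get o < La) (hb : 0 < b) (hT : 0 < T) (hn : k.nV + 1 ≤ b ^ T)
    (hX : La * (k.nV + 1) * b ≤ g.X) (hXb : b ^ T ≤ g.X)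
    (hXO : k.DD * (1 + 10 * T * k.LM) ^ T ≤ g.X)
    (hH : La * b * (3 * T * rounds k + 1) ≤ k.cH)
    (hC : (14 * T * (k.LM + 1) + 1) * rounds k + 3 ≤ k.Cb) :
    Ds.BoxSpec g (box cls La b T) cls.get k (boxNx T) (boxGam k T) := by
  intro vx nu n P D lam J S Old h0 h1 h2 h3 h4 h5 h6 h7 h8 h9 h10
  have hLa0 : 0 < La := (Nat.zero_le _).trans_lt (hLa 0)
  have hr : J.length.size ≤ rounds k :=
    Nat.size_le_size (h10.trans (Nat.mul_le_mul h1 h3))
  let C : Ctx := ⟨vx.get, nu.get, cls.get, S, Old, n, b, La⟩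
  have hC' : C.Ok := ⟨h5, h6, h7, hcl, hb⟩
  refine (sp_bf (C := C) hC' rfl rfl rfl (T := T) (P := P) (D := D) (w0 := lam + 1) (J := J)
    (le_trans (Nat.mul_le_mul_right _ (Nat.mul_le_mul_left _ h1)) hX) hXb
    (le_trans (Nat.mul_le_mul h3 (Nat.pow_le_pow_left (by
      have := Nat.mul_le_mul_left (10 * T) h2; omega) _)) hXO)
    (Nat.mul_pos (Nat.mul_pos hLa0 h0) hb) (h1.trans hn) hT h4 (fun x hx => ?_) h9 ?_).mono
    fun r t ⟨R, ht⟩ => ⟨⟨R.pm, R.out, fun y hy => ?_, R.hl.trans ?_, fun v => (R.lw v).trans ?_⟩,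
      ht.trans ?_⟩
  · obtain ⟨a1, a2, a3, a4, a5, a6⟩ := h8 x hx
    refine ⟨a3, a4, a1, a2, fun o ho => Or.inl (a6 o (List.mem_append.2 ho)), hLa _, ?_⟩
    simp only [It.w, List.length_append, List.length_cons]; omega
  · refine h10.trans ?_
    show n * D ≤ La * n * b * D
    exact Nat.mul_le_mul_right _ ((Nat.le_mul_of_pos_left _ hLa0).trans
      (Nat.le_mul_of_pos_right _ hb))
  · obtain ⟨z, hz, rfl⟩ := R.hs y hy
    exact List.mem_map_of_mem hz
  · show La * n * b * (3 * T * J.length.size + 1) ≤ k.cH * n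
    have := Nat.mul_le_mul_left (3 * T) hr
    calc _ = La * b * (3 * T * J.length.size + 1) * n := by ring
      _ ≤ _ := Nat.mul_le_mul_right _ (le_trans (Nat.mul_le_mul_left _ (by omega)) hH)
  · exact Nat.mul_le_mul_left _ (Nat.add_le_add_right (Nat.mul_le_mul_left _ hr) 2)
  · have e1 : (14 * T * (P + 1) * (J.length + 1) + 1) * J.length.size
        ≤ (14 * T * (k.LM + 1) + 1) * (J.length + 1) * rounds k := by
      refine Nat.mul_le_mul ?_ hr
      have := Nat.mul_le_mul_right (J.length + 1)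
        (Nat.mul_le_mul_left (14 * T) (Nat.add_le_add_right h2 1))
      rw [add_mul (14 * T * (k.LM + 1))]; omega
    have e2 := Nat.mul_le_mul_right (J.length + 1) hC
    rw [add_mul, mul_right_comm] at e2
    omega

variable {α : Type} [Rp α]

@[fun_prop] theorem impl_pass {vx nu cls : α → Arr ℕ} {q : α → PP} {s : α → RS}
    (hv : Pu true vx) (h1 : Pu true nu) (h2 : Pu true cls) (h3 : Pu true q) (hs : Pu true s) :
    Impl fun a => pass (vx a) (nu a) (cls a) (q a) (s a) := by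
  unfold pass; impl

@[fun_prop] theorem impl_round {vx nu cls : α → Arr ℕ} {q : α → PP} {ka : α → ℕ} {s : α → MS}
    (hv : Pu true vx) (h1 : Pu true nu) (h2 : Pu true cls) (h3 : Pu true q) (h4 : Pu true ka)
    (hs : Pu true s) : Impl fun a => round (vx a) (nu a) (cls a) (q a) (ka a) (s a) := by
  unfold round; impl

@[fun_prop] theorem impl_bf {vx nu cls : α → Arr ℕ} {q : α → PP} {La : α → ℕ} {J : α → List It}
    (hv : Pu true vx) (h1 : Pu true nu) (h2 : Pu true cls) (h3 : Pu true q) (h4 : Pu true La)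
    (hs : Pu true J) : Impl fun a => bf (vx a) (nu a) (cls a) (q a) (La a) (J a) := by
  unfold bf; impl

@[fun_prop] theorem impl_box {cls : α → Arr ℕ} {La b T : α → ℕ} {i : α → Ds.BI}
    (h1 : Pu true cls) (h2 : Pu true La) (h3 : Pu true b) (h4 : Pu true T) (h5 : Pu true i) :
    Impl fun a => box (cls a) (La a) (b a) (T a) (i a) := by
  unfold box; impl

end Crest.Agent.N325.Bf
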