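import Crest.Agent.N325.Bf.Round

/-!
# Row 325 (helper13): the butterfly spanner with embedding of low vertex congestion
-/

set_option autoImplicit false

namespace Crest.Agent.N325.Bf

variable {C : Ctx} {g : Gl}

/-- state of the main loop: chosen edges, walks, remaining items, their number -/
abbrev MS : Type := List ℕ × List (ℕ × List ℕ) × List It × ℕ

/-- one round; `q = (n, b, T, P, D)`, `ka = La * n * b` -/
def round (vx nu cls : Arr ℕ) (q : PP) (ka : ℕ) (s : MS) : R MS :=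
  mapP (fun x : It => (x, x)) s.2.2.1 >>= fun L =>
  forN (fun _ r => pass vx nu cls (q.1, q.2.1, q.2.2.1, q.2.2.2.1, s.2.2.2 / ka) r) q.2.2.1 0
    (1, q.2.2.2.2, s.1, L, []) >>= fun r =>
  foldL fin1 r.2.2.2.1 s.2.1 >>= fun W => lenL r.2.2.2.2 >>= fun N =>
  pure (r.2.2.1, W, r.2.2.2.2, N)

/-- load of a list of items -/
def lo (vx : ℕ → ℕ) (v : ℕ) (J : List It) : ℕ := (J.map fun x => cnt vx v x.w).sum

theorem lo_append (vx : ℕ → ℕ) (v : ℕ) (J K : List It) :
    lo vx v (J ++ K) = lo vx v J + lo vx v K := by simp [lo]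

theorem lo_perm (vx : ℕ → ℕ) (v : ℕ) {J K : List It} (h : J.Perm K) : lo vx v J = lo vx v K :=
  (h.map _).sum_eq

/-- invariant of the main loop after `r` rounds -/
structure MI (C : Ctx) (T P D : ℕ) (J : List It) (r : ℕ) (s : MS) : Prop where
  sub : ∀ x ∈ s.2.2.1, x ∈ J
  ld : ∀ v, lo C.vx v s.2.2.1 ≤ D
  pm : (s.2.1.map Prod.fst ++ s.2.2.1.map Prod.fst).Perm (J.map Prod.fst)
  N : s.2.2.2 = s.2.2.1.length
  hf : s.2.2.2 * 2 ^ r ≤ J.length
  out : ∀ q ∈ s.2.1, C.Out s.1 P q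
  hs : ∀ x ∈ s.1, ∃ y ∈ J, x = y.1
  hl : s.1.length ≤ 3 * (C.La * C.n * C.b) * T * r
  lw : ∀ v, lw C.vx v s.2.1 ≤ D * (1 + 10 * T * P) ^ T * r

theorem sp_round (hC : C.Ok) {vx nu cls : Arr ℕ} (e1 : vx.get = C.vx) (e2 : nu.get = C.nu)
    (e3 : cls.get = C.cls) {T P D w0 r : ℕ} {J : List It} {s : MS}
    (hX : C.La * C.n * C.b ≤ g.X) (hXb : C.b ^ T ≤ g.X) (hXO : D * (1 + 10 * T * P) ^ T ≤ g.X)
    (hk : 0 < C.La * C.n * C.b) (hn : C.n ≤ C.b ^ T) (hT : 0 < T) (hP : 2 ^ T * w0 ≤ P)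
    (hJ : ∀ x ∈ J, C.It [] w0 x) (hD : J.length ≤ C.La * C.n * C.b * D)
    (I : MI C T P D J r s) (hc : C.La * C.n * C.b ≤ s.2.2.2) :
    Sp g (round vx nu cls (C.n, C.b, T, P, D) (C.La * C.n * C.b) s) fun s' t =>
      MI C T P D J (r + 1) s' ∧ t ≤ 14 * T * (P + 1) * (J.length + 1) ∧
        2 * s'.2.2.2 ≤ s.2.2.2 := by
  have hN := I.N
  have hNJ : s.2.2.2 ≤ J.length := (Nat.le_mul_of_pos_right _ (by positivity)).trans I.hf
  have hth : 0 < s.2.2.2 / (C.La * C.n * C.b) := Nat.div_pos hc hk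
  have h1 : C.La * C.n * C.b * (s.2.2.2 / (C.La * C.n * C.b)) ≤ s.2.2.1.length :=
    hN ▸ Nat.mul_div_le _ _
  have h2 : s.2.2.1.length ≤ 2 * (C.La * C.n * C.b * (s.2.2.2 / (C.La * C.n * C.b))) := by
    have a := Nat.div_add_mod s.2.2.2 (C.La * C.n * C.b)
    have b := Nat.mod_lt s.2.2.2 hk
    have c := Nat.le_mul_of_pos_right (C.La * C.n * C.b) hth
    omega
  have hD' : s.2.2.2 / (C.La * C.n * C.b) ≤ D := Nat.div_le_of_le_mul (hNJ.trans hD)
  have hP0 : 0 < P := by
    obtain ⟨x, m⟩ := List.exists_mem_of_length_pos (l := s.2.2.1) (by omega)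
    have := (hJ x (I.sub x m)).len
    simp only [It.w, List.length_append, List.length_cons] at this
    have : 0 < 2 ^ T * w0 := Nat.mul_pos (by positivity) (by omega)
    omega
  unfold round
  dsimp only
  refine (sp_mapP _ _).bind fun L t1 ⟨a1, b1⟩ => (sp_forN'
    (fun j r => RI C T P D w0 s.1 s.2.2.1 j r) (s.2.2.1.length * (7 * P + 8) + 1)
    (fun j r _ hj k => sp_pass hC e1 e2 e3 hX hXb hXO hth hD' h1 h2 hP hP0 (by omega) k)
    ?_).bind fun u t2 ⟨k, b2⟩ => ?_
  · subst a1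
    refine ⟨by simp, by simp, fun x m => ?_, by simp [Function.comp_def], fun _ m => m,
      fun _ m => Or.inl m, by simp, by simp, fun v => ?_⟩
    · obtain ⟨y, m', rfl⟩ := List.mem_map.1 m
      exact ⟨(hJ y (I.sub y m')).mono (fun _ m => (nomatch m)) (by simp), rfl, by simp [Nat.mod_one]⟩
    · have := I.ld v
      simpa [ld, lo, Function.comp_def] using this
  rw [zero_add] at k
  have hl := k.pm.length_eq
  simp only [List.length_append, List.length_map] at hl
  have hh : 2 * u.2.2.2.2.length ≤ s.2.2.2 :=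
    Nat.le_of_mul_le_mul_left (by have := k.fl; rw [hN]; linarith) hT
  refine (sp_fin hC (H := u.2.2.1) (P := P) s.2.1 (fun x m => ?_)
    (fun q m => (I.out q m).mono k.h0)).bind fun W t3 ⟨c1, c2, c3, b3⟩ =>
    (sp_lenL _).bind fun N t4 ⟨a4, b4⟩ => ⟨⟨fun x m => I.sub x (k.pm.subset (by simp [m])),
      fun v => ?_, ?_, a4, ?_, c1, fun x m => ?_, ?_, fun v => ?_⟩, ?_, a4 ▸ hh⟩
  · obtain ⟨hx, he, hm⟩ := k.al x m
    rw [k.p, Nat.mod_eq_of_lt ((hC.lt _ hx.sa).trans_le hn),
      Nat.mod_eq_of_lt ((hC.lt _ hx.sb).trans_le hn)] at hm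
    exact ⟨hx.mono (fun _ h => h) hP, he, hC.inj _ _ hx.sa hx.sb hm⟩
  · have a := lo_perm C.vx v k.pm
    have := I.ld v
    rw [lo_append] at a
    show lo C.vx v u.2.2.2.2 ≤ D
    omega
  · refine List.Perm.trans ?_ I.pm
    have a := k.pm.map Prod.fst
    rw [List.map_append] at a
    refine (c2.append_right _).trans ?_
    rw [List.append_assoc]
    exact (List.perm_append_comm_assoc _ _ _).trans (a.append_left _)
  · have c := Nat.mul_le_mul_right (2 ^ r) (a4 ▸ hh)
    have d := I.hf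
    show N * 2 ^ (r + 1) ≤ _
    rw [pow_succ]; linarith
  · rcases k.hs x m with m | ⟨y, m, e⟩
    · exact I.hs x m
    · exact ⟨y, I.sub y m, e⟩
  · have a := k.hl
    have b := I.hl
    show u.2.2.1.length ≤ _
    rw [mul_add]; omega
  · have a := k.oc v
    have b := I.lw v
    rw [k.O] at a
    show lw C.vx v W ≤ _
    rw [c3, mul_add]; omega
  · have e1 : s.2.2.1.length ≤ J.length := hN ▸ hNJ
    have e2 : u.2.2.2.1.length * (P + 3) ≤ J.length * (P + 3) := Nat.mul_le_mul_right _ (by omega)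
    have e3 : T * (s.2.2.1.length * (7 * P + 8) + 1 + 1) ≤ T * (J.length * (7 * P + 8) + 2) :=
      Nat.mul_le_mul_left _ (Nat.add_le_add_right (Nat.mul_le_mul_right _ e1) 2)
    have e4 : J.length * P ≤ T * (J.length * P) := Nat.le_mul_of_pos_left _ hT
    have e5 : J.length ≤ T * J.length := Nat.le_mul_of_pos_left _ hT
    have e6 : u.2.2.2.2.length ≤ J.length := by omega
    nlinarith [Nat.zero_le (T * P), Nat.zero_le (T * (J.length * P))]

/-- **the butterfly**; `q = (n, b, T, P, D)` -/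
def bf (vx nu cls : Arr ℕ) (q : PP) (La : ℕ) (J : List It) : R (List ℕ × List (ℕ × List ℕ)) :=
  nat (La * q.1 * q.2.1) >>= fun ka => lenL J >>= fun N =>
  whileF (fun s : MS => decide (ka ≤ s.2.2.2)) (round vx nu cls q ka) (N + 1) ([], [], J, N)
    >>= fun s =>
  foldP (fun (x : It) (r : List ℕ × List (ℕ × List ℕ)) => (x.1 :: r.1, (x.1, [x.1]) :: r.2))
    s.2.2.1 (s.1, s.2.1)

theorem foldl_left (L : List It) (r : List ℕ × List (ℕ × List ℕ)) :
    L.foldl (fun r x => (x.1 :: r.1, (x.1, [x.1]) :: r.2)) r =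
      ((L.map Prod.fst).reverse ++ r.1, (L.map fun x => (x.1, [x.1])).reverse ++ r.2) := by
  induction L generalizing r with
  | nil => simp
  | cons x L ih => simp [ih]

/-- the result of the butterfly -/
structure Res (C : Ctx) (T P D : ℕ) (J : List It) (H : List ℕ) (W : List (ℕ × List ℕ)) : Prop where
  pm : (W.map Prod.fst).Perm (J.map Prod.fst)
  out : ∀ q ∈ W, C.Out H P q
  hs : ∀ x ∈ H, ∃ y ∈ J, x = y.1
  hl : H.length ≤ C.La * C.n * C.b * (3 * T * J.length.size + 1)
  lw : ∀ v, lw C.vx v W ≤ D * ((1 + 10 * T * P) ^ T * J.length.size + 2)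

theorem sp_bf (hC : C.Ok) {vx nu cls : Arr ℕ} (e1 : vx.get = C.vx) (e2 : nu.get = C.nu)
    (e3 : cls.get = C.cls) {T P D w0 : ℕ} {J : List It}
    (hX : C.La * C.n * C.b ≤ g.X) (hXb : C.b ^ T ≤ g.X) (hXO : D * (1 + 10 * T * P) ^ T ≤ g.X)
    (hk : 0 < C.La * C.n * C.b) (hn : C.n ≤ C.b ^ T) (hT : 0 < T) (hP : 2 ^ T * w0 ≤ P)
    (hJ : ∀ x ∈ J, C.It [] w0 x) (hl : ∀ v, lo C.vx v J ≤ D)
    (hD : J.length ≤ C.La * C.n * C.b * D) :
    Sp g (bf vx nu cls (C.n, C.b, T, P, D) C.La J) fun r t => Res C T P D J r.1 r.2 ∧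
      t ≤ (14 * T * (P + 1) * (J.length + 1) + 1) * J.length.size + 2 * J.length + 3 := by
  unfold bf
  dsimp only
  refine sp_bind.2 (sp_nat.2 ⟨hX, (sp_lenL _).bind fun N t1 ⟨a1, b1⟩ => (sp_whileF
    (fun s t => ∃ r ≤ J.length.size, MI C T P D J r s ∧
      t ≤ (14 * T * (P + 1) * (J.length + 1) + 1) * r) (fun s => s.2.2.1.length)
    (fun s t ⟨r, _, I, ht⟩ hc => ?_) (t := 0) ⟨0, Nat.zero_le _, ?_, Nat.zero_le _⟩
    (by simp [a1])).bind fun s t2 ⟨hc, u, e, r, hr, I, ht⟩ => ?_⟩)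
  · have hc := of_decide_eq_true hc
    refine (sp_round hC e1 e2 e3 hX hXb hXO hk hn hT hP hJ hD I hc).mono fun s' u ⟨I', hu, hh⟩ =>
      ⟨⟨r + 1, Nat.lt_size.2 (le_trans (Nat.le_mul_of_pos_left _ (hk.trans_le hc)) I.hf), I',
        by rw [mul_add]; omega⟩, ?_⟩
    have := I.N
    have := I'.N
    show s'.2.2.1.length < s.2.2.1.length
    omega
  · subst a1
    exact ⟨fun _ m => m, hl, by simp, rfl, by simp, fun _ m => (nomatch m), fun _ m => (nomatch m),
      by simp, by simp [lw]⟩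
  have hc : s.2.2.2 < C.La * C.n * C.b := by simpa using hc
  have hN := I.N
  have hNJ : s.2.2.2 ≤ J.length := (Nat.le_mul_of_pos_right _ (by positivity)).trans I.hf
  refine (sp_foldP _ _ _).mono fun z t3 ⟨a3, b3⟩ => ⟨?_, ?_⟩
  · rw [a3, foldl_left]
    refine ⟨?_, fun q m => ?_, fun x m => ?_, ?_, fun v => ?_⟩
    · refine List.Perm.trans ?_ I.pm
      simp only [List.map_append, List.map_reverse, List.map_map, Function.comp_def]
      exact ((List.reverse_perm _).append_right _).trans List.perm_append_comm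
    · rcases List.mem_append.1 m with m | m
      · obtain ⟨x, m', rfl⟩ := List.mem_map.1 (List.mem_reverse.1 m)
        have := (hJ x (I.sub x m')).len
        simp only [It.w, List.length_append, List.length_cons] at this
        have : 0 < 2 ^ T * w0 := Nat.mul_pos (by positivity) (by omega)
        refine ⟨⟨rfl, rfl⟩, by simp only [List.length_singleton]; omega, fun o k => ?_⟩
        rw [List.mem_singleton.1 k]
        exact Or.inr ⟨rfl, x.1,
          List.mem_append_left _ (List.mem_reverse.2 (List.mem_map_of_mem m')), rfl⟩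
      · exact (I.out q m).mono fun x k => List.mem_append_right _ k
    · rcases List.mem_append.1 m with m | m
      · obtain ⟨y, m', rfl⟩ := List.mem_map.1 (List.mem_reverse.1 m)
        exact ⟨y, I.sub y m', rfl⟩
      · exact I.hs x m
    · have a := I.hl
      have b := Nat.mul_le_mul_left (3 * (C.La * C.n * C.b) * T) hr
      simp only [List.length_append, List.length_reverse, List.length_map]
      linarith
    · have a := I.lw v
      have b := Nat.mul_le_mul_left (D * (1 + 10 * T * P) ^ T) hr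
      have c := I.ld v
      have d : ∀ L : List It, lw C.vx v (L.map fun x => (x.1, [x.1])) ≤ 2 * lo C.vx v L := by
        intro L
        induction L with
        | nil => simp [lw]
        | cons x L ih =>
          simp only [lw, lo, List.map_cons, List.sum_cons, It.w, cnt_append, cnt_cons, cnt_nil]
            at ih ⊢
          omega
      have d' := d s.2.2.1
      simp only [lw, List.map_append, List.map_reverse, List.sum_append, List.sum_reverse] at a d' ⊢
      linarith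
  · have b := Nat.mul_le_mul_left (14 * T * (P + 1) * (J.length + 1) + 1) hr
    omega

end Crest.Agent.N325.Bf
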