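import Crest.Agent.N325.Bf.Step

/-!
# Row 325 (helper13): passes and rounds of the butterfly
-/

set_option autoImplicit false

namespace Crest.Agent.N325.Bf

open Finset

variable {C : Ctx} {g : Gl}

/-- state of a round: `b ^ j`, bound on the loads, chosen edges, alive items, failed items -/
abbrev RS : Type := ℕ × ℕ × List ℕ × List (It × It) × List It

/-- one pass; `q = (n, b, T, P, θ)` -/
def pass (vx nu cls : Arr ℕ) (q : PP) (s : RS) : R RS :=
  nat (8 * q.2.2.1 * q.2.2.2.1 * s.2.1) >>= fun bud =>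
  foldL (stepIt vx nu cls (q.1, q.2.1, s.1, q.2.2.2.2, bud)) s.2.2.2.1
    (Arr.cst (0, 0, []), Arr.cst 0, s.2.2.1, [], s.2.2.2.2) >>= fun r =>
  nat (s.1 * q.2.1) >>= fun p => nat (s.2.1 * (1 + 10 * q.2.2.1 * q.2.2.2.1)) >>= fun O =>
  pure (p, O, r.2.2.1, r.2.2.2.1, r.2.2.2.2)

theorem card_blocked (U : List ℕ) (bud th : ℕ) :
    (U.toFinset.filter fun v => bud ≤ U.count v * th).card * bud ≤ U.length * th := by
  calc _ = ∑ _v ∈ U.toFinset.filter fun v => bud ≤ U.count v * th, bud := by simp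
    _ ≤ ∑ v ∈ U.toFinset.filter fun v => bud ≤ U.count v * th, U.count v * th :=
      sum_le_sum fun v m => (mem_filter.1 m).2
    _ ≤ ∑ v ∈ U.toFinset, U.count v * th := sum_le_sum_of_subset (filter_subset _ _)
    _ = U.length * th := by rw [← sum_mul, List.sum_toFinset_count_eq_length]

theorem ar_fail {u th a h h' n P T B O : ℕ} (b : u + 2 * a * h ≤ 2 * a * h')
    (a2 : th * h' ≤ th * h + 2 * n) (hl : a ≤ P) (h3 : B * (8 * T * P * O) ≤ u * th) (hP : 0 < P) :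
    2 * T * (B * O) ≤ n := by
  have a1 := Nat.mul_le_mul_left th b
  have a3 := Nat.mul_le_mul_left (2 * a) a2
  have a4 := Nat.mul_le_mul_right n hl
  have h6 : 4 * P * (2 * T * (B * O)) ≤ 4 * P * n := by linarith
  exact Nat.le_of_mul_le_mul_left h6 (by omega)

theorem ar_load {x y z u th a T P O : ℕ} (h3 : x + y ≤ z + th * u)
    (h4 : u * th ≤ 8 * T * P * O + 2 * a * th) (h5 : z ≤ O) (h6 : a * th ≤ T * P * O) :
    x ≤ O * (1 + 10 * T * P) := by linarith [Nat.zero_le y]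

theorem ar_len {th h h' k n : ℕ} (a : th * h' ≤ th * h + n + k * th) (b : n ≤ 2 * (k * th))
    (c : 0 < th) : h' ≤ h + 3 * k :=
  Nat.le_of_mul_le_mul_left (by linarith) c

/-- invariant of a round after `j` passes -/
structure RI (C : Ctx) (T P D w0 : ℕ) (H0 : List ℕ) (J : List It) (j : ℕ) (s : RS) : Prop where
  p : s.1 = C.b ^ j
  O : s.2.1 = D * (1 + 10 * T * P) ^ j
  al : ∀ x ∈ s.2.2.2.1, C.It s.2.2.1 (2 ^ j * w0) x.1 ∧ x.1.1 = x.2.1 ∧
    C.nu x.1.2.1 % s.1 = C.nu x.1.2.2.1 % s.1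
  pm : (s.2.2.2.1.map Prod.snd ++ s.2.2.2.2).Perm J
  h0 : ∀ x ∈ H0, x ∈ s.2.2.1
  hs : ∀ x ∈ s.2.2.1, x ∈ H0 ∨ ∃ y ∈ J, x = y.1
  hl : s.2.2.1.length ≤ H0.length + 3 * (C.La * C.n * C.b) * j
  fl : 2 * T * s.2.2.2.2.length ≤ J.length * j
  oc : ∀ v, ld C.vx v s.2.2.2.1 ≤ s.2.1

theorem sp_pass (hC : C.Ok) {vx nu cls : Arr ℕ} (e1 : vx.get = C.vx) (e2 : nu.get = C.nu)
    (e3 : cls.get = C.cls) {T P D w0 th j : ℕ} {H0 : List ℕ} {J : List It} {s : RS}
    (hX : C.La * C.n * C.b ≤ g.X) (hXb : C.b ^ T ≤ g.X) (hXO : D * (1 + 10 * T * P) ^ T ≤ g.X)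
    (hth : 0 < th) (hD : th ≤ D) (h1 : C.La * C.n * C.b * th ≤ J.length)
    (h2 : J.length ≤ 2 * (C.La * C.n * C.b * th)) (hP : 2 ^ T * w0 ≤ P) (hP0 : 0 < P) (hj : j < T)
    (I : RI C T P D w0 H0 J j s) :
    Sp g (pass vx nu cls (C.n, C.b, T, P, th) s) fun s' t =>
      RI C T P D w0 H0 J (j + 1) s' ∧ t ≤ J.length * (7 * P + 8) + 1 := by
  have hG : 0 < 1 + 10 * T * P := by omega
  have hlen : 2 ^ j * w0 ≤ P :=
    (Nat.mul_le_mul_right _ (Nat.pow_le_pow_right two_pos hj.le)).trans hP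
  have hO : D ≤ s.2.1 := by rw [I.O]; exact Nat.le_mul_of_pos_right _ (by positivity)
  have hO' : s.2.1 * (1 + 10 * T * P) ≤ g.X := by
    rw [I.O, mul_assoc, ← pow_succ]
    exact (Nat.mul_le_mul_left _ (Nat.pow_le_pow_right hG hj)).trans hXO
  have hb : 0 < 8 * T * P * s.2.1 := by
    have : 0 < T := by omega
    have : 0 < s.2.1 := by omega
    positivity
  have hN : s.2.2.2.1.length ≤ J.length := by
    have := I.pm.length_eq
    simp only [List.length_append, List.length_map] at this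
    omega
  refine sp_bind.2 (sp_nat.2 ⟨le_trans (by
    show 8 * T * P * s.2.1 ≤ _; linarith [Nat.zero_le (T * P * s.2.1), Nat.zero_le s.2.1]) hO', ?_⟩)
  refine (sp_foldL' (fun l r => ∃ dn, dn ++ l = s.2.2.2.1 ∧
      PI C (2 ^ j * w0) s.1 th (8 * T * P * s.2.1) s.2.2.1 s.2.2.2.2 dn r) (fun _ => 7 * P + 7)
    (fun a l r ⟨dn, e, k⟩ => ?_) ⟨[], rfl, ?_⟩).bind fun r t ⟨⟨dn, e, k⟩, ht⟩ => ?_
  · have := I.al a (by rw [← e]; simp)
    exact (sp_stepIt hC e1 e2 e3 hX hth hb k this.1 this.2.1 this.2.2).mono fun s' t k' =>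
      ⟨⟨dn ++ [a], by simpa using e, k'.1⟩, by have := k'.2; omega⟩
  · exact ⟨fun _ m => (nomatch m), by simp, fun k => ⟨Nat.zero_le _, fun h => absurd h (by simp)⟩,
      fun _ m => m, fun _ m => Or.inl m, by simp, ⟨[], by simp, by simp, by simp⟩, by simp, by simp⟩
  rw [List.append_nil] at e
  subst e
  refine sp_bind.2 (sp_nat.2 ⟨?_, sp_bind.2 (sp_nat.2 ⟨hO', ?_, ?_⟩)⟩)
  · show s.1 * C.b ≤ _
    rw [I.p, ← pow_succ]
    exact (Nat.pow_le_pow_right hC.bpos hj).trans hXb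
  · have hsum : ∑ k ∈ range (C.La * C.n * C.b), (r.1.get k).1 ≤ C.La * C.n * C.b * th := by
      simpa using sum_le_sum (s := range (C.La * C.n * C.b)) fun k' _ => (k.rp k').1
    have hch := k.ch
    refine ⟨by show s.1 * C.b = _; rw [I.p, pow_succ],
      by show s.2.1 * (1 + 10 * T * P) = _; rw [I.O, pow_succ, mul_assoc],
      fun x m => ⟨(k.al x m).1.mono (fun _ h => h) (by rw [pow_succ]; linarith), (k.al x m).2⟩,
      k.pm.trans I.pm, fun x m => k.h0 x (I.h0 x m), fun x m => ?_, ?_, ?_, fun v => ?_⟩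
    · rcases k.hs x m with m | ⟨y, m, e⟩
      · exact I.hs x m
      · exact Or.inr ⟨y.2, I.pm.subset (List.mem_append_left _ (List.mem_map_of_mem m)), e⟩
    · have h4 : r.2.2.1.length ≤ s.2.2.1.length + 3 * (C.La * C.n * C.b) :=
        ar_len (n := J.length) (by omega) h2 hth
      have := I.hl
      show r.2.2.1.length ≤ _
      rw [mul_add]; omega
    · obtain ⟨U, -, b, c⟩ := k.us
      have h3 := card_blocked U (8 * T * P * s.2.1) th
      have h4 : ∑ v ∈ U.toFinset.filter (fun v => 8 * T * P * s.2.1 ≤ U.count v * th),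
          ld C.vx v s.2.2.2.1 ≤
          (U.toFinset.filter fun v => 8 * T * P * s.2.1 ≤ U.count v * th).card * s.2.1 := by
        simpa using sum_le_sum
          (s := U.toFinset.filter fun v => 8 * T * P * s.2.1 ≤ U.count v * th) fun v _ => I.oc v
      generalize (U.toFinset.filter fun v => 8 * T * P * s.2.1 ≤ U.count v * th).card = B at h3 h4
      have h7 := ar_fail (n := J.length) b (by omega) hlen h3 hP0
      have h8 := I.fl
      have h9 : 2 * T * r.2.2.2.2.length ≤ 2 * T * (s.2.2.2.2.length + B * s.2.1) :=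
        Nat.mul_le_mul_left _ (by omega)
      show 2 * T * r.2.2.2.2.length ≤ _
      rw [mul_add] at h9
      rw [mul_add]; omega
    · have h6 : 2 ^ j * w0 ≤ T * P :=
        hlen.trans (Nat.le_mul_of_pos_left P (Nat.zero_lt_of_lt hj))
      exact ar_load (k.oc v) (k.ub v) (I.oc v) (Nat.mul_le_mul h6 (hD.trans hO))
  · have := Nat.mul_le_mul_right (7 * P + 8) hN
    simp only [List.map_const', List.sum_replicate, smul_eq_mul] at ht
    have := le_trans ht (Nat.add_le_add_right this 1)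
    omega

/-- the final walk of an item -/
def fin1 (x : It × It) (W : List (ℕ × List ℕ)) : R (List (ℕ × List ℕ)) :=
  rvApp x.1.2.2.2.2 [] >>= fun r => rvApp x.1.2.2.2.1 r >>= fun w => pure ((x.1.1, w) :: W)

/-- a correct output walk -/
def Ctx.Out (C : Ctx) (H : List ℕ) (P : ℕ) (q : ℕ × List ℕ) : Prop :=
  Wk C.vx (C.vx q.1) q.2 (C.vx (rv q.1)) ∧ q.2.length ≤ P ∧ ∀ o ∈ q.2, C.Al H (C.cls q.1) o

theorem Ctx.Out.mono {H H' : List ℕ} {P : ℕ} {q : ℕ × List ℕ} (h : C.Out H P q)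
    (k : ∀ x ∈ H, x ∈ H') : C.Out H' P q := ⟨h.1, h.2.1, fun o m => (h.2.2 o m).mono k⟩

/-- load of the output at `v` -/
def lw (vx : ℕ → ℕ) (v : ℕ) (W : List (ℕ × List ℕ)) : ℕ := (W.map fun q => cnt vx v (q.1 :: q.2)).sum

theorem sp_fin (hC : C.Ok) {H : List ℕ} {P : ℕ} {L : List (It × It)} (W : List (ℕ × List ℕ))
    (hL : ∀ x ∈ L, C.It H P x.1 ∧ x.1.1 = x.2.1 ∧ x.1.2.1 = x.1.2.2.1)
    (hW : ∀ q ∈ W, C.Out H P q) :
    Sp g (foldL fin1 L W) fun W' t => (∀ q ∈ W', C.Out H P q) ∧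
      (W'.map Prod.fst).Perm ((L.map Prod.snd).map Prod.fst ++ W.map Prod.fst) ∧
      (∀ v, lw C.vx v W' = lw C.vx v W + ld C.vx v L) ∧ t ≤ L.length * (P + 3) + 1 := by
  refine (sp_foldL' (fun l W' => (∀ x ∈ l, x ∈ L) ∧ (∀ q ∈ W', C.Out H P q) ∧
      ((l.map Prod.snd).map Prod.fst ++ W'.map Prod.fst).Perm
        ((L.map Prod.snd).map Prod.fst ++ W.map Prod.fst) ∧
      ∀ v, lw C.vx v W' + ld C.vx v l = lw C.vx v W + ld C.vx v L) (fun _ => P + 2)
    (fun a l W' ⟨k1, k2, k3, k4⟩ => ?_) ⟨fun _ m => m, hW, List.Perm.refl _, fun _ => rfl⟩).mono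
    fun W' t ⟨⟨_, k2, k3, k4⟩, ht⟩ => ⟨k2, by simpa using k3, by simpa using k4, by simpa using ht⟩
  obtain ⟨hx, he, hab⟩ := hL a (k1 a List.mem_cons_self)
  have hl := hx.len
  simp only [It.w, List.length_append, List.length_cons] at hl
  refine (sp_rvApp _ _).bind fun r t1 ⟨a1, b1⟩ => (sp_rvApp _ _).bind fun w t2 ⟨a2, b2⟩ =>
    ⟨⟨fun x m => k1 x (List.mem_cons_of_mem _ m), fun q m => ?_, ?_, fun v => ?_⟩, by omega⟩
  · rcases List.mem_cons.1 m with rfl | m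
    · rw [a2, a1, List.append_nil]
      refine ⟨hx.wa.rev.append (hab ▸ hx.wb.rev), by simp; omega, fun o m => ?_⟩
      rw [← rv_rv o]
      rcases List.mem_append.1 m with m | m
      · exact (hx.al _ (Or.inl (mem_rvL.1 m))).rv hC
      · exact (hx.al _ (Or.inr (mem_rvL.1 m))).rv hC
    · exact k2 q m
  · refine List.Perm.trans ?_ k3
    simp only [List.map_cons, List.cons_append, he]
    exact List.perm_middle
  · rw [← k4 v, a2, a1]
    simp only [lw, List.map_cons, List.sum_cons, ld_cons, It.w, cnt_append, cnt_cons, cnt_rvL,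
      cnt_nil]
    omega

end Crest.Agent.N325.Bf
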