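import Crest.Agent.N325.Bf.Pass

/-!
# Row 325 (helper13): the four cases of one butterfly step keep the invariant
-/

set_option autoImplicit false

namespace Crest.Agent.N325.Bf

open Finset

variable {C : Ctx} {len p th bud : ℕ} {H0 : List ℕ} {F0 : List It} {dn : List (It × It)} {s : PS}
  {x : It × It}

theorem perm_step {α : Type} {a : α} {A F D F0 : List α} (h : (A ++ F).Perm (D ++ F0)) :
    (a :: A ++ F).Perm (D ++ [a] ++ F0) := by
  rw [List.append_assoc]
  exact (h.cons a).trans List.perm_middle.symm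

theorem hs_step (I : PI C len p th bud H0 F0 dn s) :
    ∀ y ∈ s.2.2.1, y ∈ H0 ∨ ∃ z ∈ dn ++ [x], y = z.2.1 := fun y m =>
  (I.hs y m).imp id fun ⟨z, a, e⟩ => ⟨z, List.mem_append_left _ a, e⟩

theorem us_step (I : PI C len p th bud H0 F0 dn s) :
    ∃ U : List ℕ, (∀ v, s.2.1.get v = U.count v) ∧
      U.length + 2 * len * H0.length ≤ 2 * len * s.2.2.1.length ∧
      s.2.2.2.2.length ≤ F0.length +
        ∑ v ∈ U.toFinset.filter (fun v => bud ≤ U.count v * th), ld C.vx v (dn ++ [x]) := by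
  obtain ⟨U, a, b, c⟩ := I.us
  exact ⟨U, a, b, c.trans (Nat.add_le_add_left (ld_mono_sum subset_rfl) _)⟩

/-- the digits agree -/
theorem PI.same (I : PI C len p th bud H0 F0 dn s) (hx : C.It H0 len x.1) (he : x.1.1 = x.2.1)
    (hp : C.nu x.1.2.1 % p = C.nu x.1.2.2.1 % p)
    (hd : C.nu x.1.2.1 / p % C.b = C.nu x.1.2.2.1 / p % C.b) :
    PI C len p th bud H0 F0 (dn ++ [x]) (s.1, s.2.1, s.2.2.1, x :: s.2.2.2.1, s.2.2.2.2) where
  al y m := by
    rcases List.mem_cons.1 m with rfl | m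
    · exact ⟨hx.mono I.h0 (by omega), he, mod_step hp hd⟩
    · exact I.al y m
  pm := by simpa using perm_step (a := x.2) I.pm
  rp := I.rp
  h0 := I.h0
  hs := hs_step (s := s) I
  ch := by have := I.ch; simp only [List.length_append, List.length_singleton]; omega
  us := us_step (s := s) I
  ub := I.ub
  oc v := by have := I.oc v; simp only [ld_cons, ld_append, ld_nil]; omega

/-- the item fails -/
theorem PI.fail (I : PI C len p th bud H0 F0 dn s) (hb : 0 < bud)
    (hw : ∃ o ∈ x.1.w, bud ≤ s.2.1.get (C.vx o) * th ∨ bud ≤ s.2.1.get (C.vx (rv o)) * th) :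
    PI C len p th bud H0 F0 (dn ++ [x]) (s.1, s.2.1, s.2.2.1, s.2.2.2.1, x.2 :: s.2.2.2.2) where
  al := I.al
  pm := by simpa using List.perm_middle.trans (perm_step (a := x.2) I.pm)
  rp := I.rp
  h0 := I.h0
  hs := hs_step (s := s) I
  ch := by have := I.ch; simp only [List.length_append, List.length_singleton]; omega
  us := by
    obtain ⟨U, a, b, c⟩ := I.us
    refine ⟨U, a, b, ?_⟩
    obtain ⟨v, hv, hc⟩ : ∃ v, bud ≤ U.count v * th ∧ 0 < cnt C.vx v x.1.w := by
      obtain ⟨o, m, h | h⟩ := hw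
      · exact ⟨_, a _ ▸ h, cnt_pos m (Or.inl rfl)⟩
      · exact ⟨_, a _ ▸ h, cnt_pos m (Or.inr rfl)⟩
    have hU : v ∈ U.toFinset.filter (fun v => bud ≤ U.count v * th) := by
      refine mem_filter.2 ⟨List.mem_toFinset.2 (List.count_pos_iff.1 (Nat.pos_of_ne_zero ?_)), hv⟩
      intro e; rw [e] at hv; omega
    have h1 : cnt C.vx v x.1.w ≤
        ∑ v ∈ U.toFinset.filter (fun v => bud ≤ U.count v * th), cnt C.vx v x.1.w :=
      single_le_sum (f := fun v => cnt C.vx v x.1.w) (fun _ _ => Nat.zero_le _) hU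
    simp only [ld_append, ld_cons, ld_nil, add_zero, sum_add_distrib, List.length_cons]
    omega
  ub := I.ub
  oc v := by have := I.oc v; simp only [ld_cons, ld_append, ld_nil]; omega

/-- the item follows the representative -/
theorem PI.follow (hC : C.Ok) (I : PI C len p th bud H0 F0 dn s) (hx : C.It H0 len x.1)
    (he : x.1.1 = x.2.1) (hp : C.nu x.1.2.1 % p = C.nu x.1.2.2.1 % p) {key : ℕ}
    (hk : key = (C.cls x.1.1 * C.n + C.nu x.1.2.1) * C.b + C.nu x.1.2.2.1 / p % C.b)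
    (h0 : 0 < (s.1.get key).1) :
    PI C len p th bud H0 F0 (dn ++ [x])
      (s.1.set key ((s.1.get key).1 - 1, (s.1.get key).2), s.2.1, s.2.2.1,
        ((x.1.1, (s.1.get key).2.1, x.1.2.2.1, (s.1.get key).2.2 ++ x.1.2.2.2.1, x.1.2.2.2.2), x.2)
          :: s.2.2.2.1, s.2.2.2.2) := by
  have hd : C.nu x.1.2.2.1 / p % C.b < C.b := Nat.mod_lt _ hC.bpos
  have hlt : key < C.La * C.n * C.b := hk ▸ key_lt hx.cl (hC.lt _ hx.sa) hd
  obtain ⟨A, c, d, e, sA, db, st, wk, al, ln, m1, m2⟩ := (I.rp key).2 h0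
  obtain ⟨e1, e2, e3⟩ := key_inj (hC.lt _ hx.sa) hd (hC.lt _ sA) db (hk.symm.trans e)
  have e4 : x.1.2.1 = A := hC.inj _ _ hx.sa sA e2
  refine ⟨fun y m => ?_, by simpa using perm_step (a := x.2) I.pm, fun k => ?_, I.h0, hs_step (s := s) I, ?_,
    us_step (s := s) I, I.ub, fun v => ?_⟩
  · rcases List.mem_cons.1 m with rfl | m
    · refine ⟨⟨wk.append (e4 ▸ hx.wa), hx.wb, st, hx.sb, fun o m => ?_, hx.cl, ?_⟩, he,
        mod_step (by rw [← hp, e4]; exact m1) (by rw [e3]; exact m2)⟩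
      · rcases m with m | m
        · rcases List.mem_append.1 m with m | m
          · exact e1 ▸ al o m
          · exact (hx.al o (Or.inl m)).mono I.h0
        · exact (hx.al o (Or.inr m)).mono I.h0
      · have := hx.len
        simp only [It.w, List.length_append, List.length_cons] at this ⊢
        omega
    · exact I.al y m
  · show ((s.1.set key _).get k).1 ≤ th ∧ (0 < ((s.1.set key _).get k).1 →
      C.Rep s.2.2.1 len p k ((s.1.set key _).get k).2)
    rw [Arr.get_set]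
    split_ifs with h
    · subst h
      exact ⟨(Nat.sub_le _ _).trans (I.rp k).1, fun _ => (I.rp k).2 h0⟩
    · exact I.rp k
  · have h1 := I.ch
    have h2 := sum_set Prod.fst s.1 hlt ((s.1.get key).1 - 1, (s.1.get key).2)
    simp only [List.length_append, List.length_singleton] at h2 ⊢
    omega
  · have h1 := I.oc v
    have h2 := sum_set (fun r : ℕ × ℕ × List ℕ => r.1 * cnt C.vx v r.2.2) s.1 hlt
      ((s.1.get key).1 - 1, (s.1.get key).2)
    have h3 : ((s.1.get key).1 - 1) * cnt C.vx v (s.1.get key).2.2 + cnt C.vx v (s.1.get key).2.2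
        = (s.1.get key).1 * cnt C.vx v (s.1.get key).2.2 := by
      rw [← Nat.succ_mul, Nat.succ_eq_add_one, Nat.sub_add_cancel h0]
    simp only [ld_cons, ld_append, ld_nil, It.w, cnt_append] at h2 ⊢
    omega

/-- the item becomes the representative -/
theorem PI.pick (hC : C.Ok) (I : PI C len p th bud H0 F0 dn s) (hx : C.It H0 len x.1)
    (he : x.1.1 = x.2.1) (hp : C.nu x.1.2.1 % p = C.nu x.1.2.2.1 % p) {key : ℕ}
    (hk : key = (C.cls x.1.1 * C.n + C.nu x.1.2.1) * C.b + C.nu x.1.2.2.1 / p % C.b)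
    (h0 : (s.1.get key).1 = 0) (hth : 0 < th)
    (hw : ∀ o ∈ x.1.w, s.2.1.get (C.vx o) * th < bud ∧ s.2.1.get (C.vx (rv o)) * th < bud)
    {u : Arr ℕ} (hu : ∀ v, u.get v = s.2.1.get v + cnt C.vx v x.1.w) :
    PI C len p th bud H0 F0 (dn ++ [x])
      (s.1.set key (th - 1, x.1.2.2.1, rvL x.1.w), u, x.1.1 :: s.2.2.1,
        ((x.1.1, x.1.2.2.1, x.1.2.2.1, rvL x.1.w ++ x.1.2.2.2.1, x.1.2.2.2.2), x.2) :: s.2.2.2.1,
        s.2.2.2.2) := by
  have hd : C.nu x.1.2.2.1 / p % C.b < C.b := Nat.mod_lt _ hC.bpos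
  have hlt : key < C.La * C.n * C.b := hk ▸ key_lt hx.cl (hC.lt _ hx.sa) hd
  have sub : ∀ y ∈ s.2.2.1, y ∈ x.1.1 :: s.2.2.1 := fun y m => List.mem_cons_of_mem _ m
  have sub0 : ∀ y ∈ H0, y ∈ x.1.1 :: s.2.2.1 := fun y m => sub y (I.h0 y m)
  have alw : ∀ o ∈ rvL x.1.w, C.Al (x.1.1 :: s.2.2.1) (C.cls x.1.1) o := fun o m => by
    rw [← rv_rv o]
    refine Ctx.Al.rv hC ?_
    rcases List.mem_append.1 (mem_rvL.1 m) with m | m
    · exact (hx.al _ (Or.inl m)).mono sub0
    · rcases List.mem_cons.1 m with m | m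
      · exact Or.inr ⟨by rw [m], x.1.1, List.mem_cons_self, by rw [m]⟩
      · exact (hx.al _ (Or.inr m)).mono sub0
  have hl := hx.len
  refine ⟨fun y m => ?_, by simpa using perm_step (a := x.2) I.pm, fun k => ?_, sub0, fun y m => ?_,
    ?_, ?_, fun v => ?_, fun v => ?_⟩
  · rcases List.mem_cons.1 m with rfl | m
    · refine ⟨⟨hx.wk.rev.append hx.wa, hx.wb, hx.sb, hx.sb, fun o m => ?_, hx.cl, ?_⟩, he, rfl⟩
      · rcases m with m | m
        · rcases List.mem_append.1 m with m | m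
          · exact alw o m
          · exact (hx.al o (Or.inl m)).mono sub0
        · exact (hx.al o (Or.inr m)).mono sub0
      · simp only [It.w, List.length_append, List.length_cons, length_rvL] at hl ⊢
        omega
    · exact ⟨(I.al y m).1.mono sub le_rfl, (I.al y m).2⟩
  · show ((s.1.set key _).get k).1 ≤ th ∧ (0 < ((s.1.set key _).get k).1 →
      C.Rep (x.1.1 :: s.2.2.1) len p k ((s.1.set key _).get k).2)
    rw [Arr.get_set]
    split_ifs with h
    · subst h
      exact ⟨Nat.sub_le _ _, fun _ => ⟨_, _, _, hk, hx.sa, hd, hx.sb, hx.wk.rev, alw,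
        by simpa using hl, hp.symm, rfl⟩⟩
    · refine ⟨(I.rp k).1, fun h => ?_⟩
      obtain ⟨A, c, d, e, sA, db, st, wk, al, r⟩ := (I.rp k).2 h
      exact ⟨A, c, d, e, sA, db, st, wk, fun o m => (al o m).mono sub, r⟩
  · rcases List.mem_cons.1 m with rfl | m
    · exact Or.inr ⟨x, by simp, he⟩
    · exact hs_step (s := s) I y m
  · have h1 := I.ch
    have h2 := sum_set Prod.fst s.1 hlt (th - 1, x.1.2.2.1, rvL x.1.w)
    simp only [List.length_append, List.length_cons, List.length_nil, mul_add] at h2 ⊢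
    omega
  · obtain ⟨U, a, b, c⟩ := I.us
    refine ⟨U ++ vl C.vx x.1.w, fun v => by rw [List.count_append, count_vl, ← a]; exact hu v, ?_,
      c.trans (Nat.add_le_add_left (ld_mono_sum fun v m => ?_) _)⟩
    · simp only [List.length_append, length_vl, List.length_cons, mul_add]
      omega
    · rw [mem_filter] at m ⊢
      refine ⟨by simp [List.mem_toFinset.1 m.1], m.2.trans (Nat.mul_le_mul_right _ ?_)⟩
      rw [List.count_append]; omega
  · show u.get v * th ≤ _
    rw [hu, add_mul]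
    rcases Nat.eq_zero_or_pos (cnt C.vx v x.1.w) with h | h
    · have := I.ub v; rw [h]; omega
    · obtain ⟨o, m, e⟩ := exists_of_cnt_pos h
      have h1 : s.2.1.get v * th < bud := by
        rcases e with e | e
        · exact e ▸ (hw o m).1
        · exact e ▸ (hw o m).2
      have h2 : cnt C.vx v x.1.w * th ≤ 2 * len * th :=
        Nat.mul_le_mul_right _ ((cnt_le _ _).trans (by omega))
      omega
  · have h1 := I.oc v
    have h2 := sum_set (fun r : ℕ × ℕ × List ℕ => r.1 * cnt C.vx v r.2.2) s.1 hlt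
      (th - 1, x.1.2.2.1, rvL x.1.w)
    have h3 : (th - 1) * cnt C.vx v x.1.w + cnt C.vx v x.1.w = th * cnt C.vx v x.1.w := by
      rw [← Nat.succ_mul, Nat.succ_eq_add_one, Nat.sub_add_cancel hth]
    have h4 : cnt C.vx v (It.w (x.1.1, x.1.2.2.1, x.1.2.2.1, rvL x.1.w ++ x.1.2.2.2.1, x.1.2.2.2.2))
        = cnt C.vx v x.1.w + cnt C.vx v x.1.w := by
      simp only [It.w, cnt_append, cnt_rvL]; omega
    show ld C.vx v (_ :: _) + _ ≤ _ + th * u.get v
    rw [hu, ld_cons, h4]
    simp only [h0, zero_mul, cnt_rvL, ld_cons, ld_append, ld_nil, mul_add] at h2 ⊢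
    omega

variable {g : Gl}

theorem sp_stepIt (hC : C.Ok) {vx nu cls : Arr ℕ} (e1 : vx.get = C.vx) (e2 : nu.get = C.nu)
    (e3 : cls.get = C.cls) (hX : C.La * C.n * C.b ≤ g.X) (hth : 0 < th) (hb : 0 < bud)
    (I : PI C len p th bud H0 F0 dn s) (hx : C.It H0 len x.1) (he : x.1.1 = x.2.1)
    (hp : C.nu x.1.2.1 % p = C.nu x.1.2.2.1 % p) :
    Sp g (stepIt vx nu cls (C.n, C.b, p, th, bud) x s) fun s' t =>
      PI C len p th bud H0 F0 (dn ++ [x]) s' ∧ t ≤ 7 * len + 7 := by
  have hl := hx.len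
  unfold stepIt
  simp only [e2, e3]
  refine sp_ite.2 ⟨fun h => ⟨I.same hx he hp h, Nat.zero_le _⟩, fun _ => sp_bind.2 (sp_nat.2
    ⟨(key_lt hx.cl (hC.lt _ hx.sa) (Nat.mod_lt _ hC.bpos)).le.trans hX, sp_ite.2 ⟨fun h0 => ?_,
      fun h0 => ?_⟩⟩)⟩
  · refine (sp_appL _ _).bind fun ra t k => ⟨k.1 ▸ I.follow hC hx he hp rfl h0, ?_⟩
    obtain ⟨A, c, d, -, -, -, -, -, -, ln, -⟩ := (I.rp _).2 h0
    have := k.2
    omega
  · unfold choose
    refine (sp_appL _ _).bind fun w t1 k1 => (sp_anyP _ _).bind fun bl t2 k2 => ?_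
    have ew : w = x.1.w := k1.1
    have l1 : x.1.2.2.2.1.length ≤ len := by
      simp only [It.w, List.length_append] at hl; omega
    have := k1.2
    have := k2.2
    subst ew
    refine sp_ite.2 ⟨fun h => ⟨I.fail hb ?_, by omega⟩, fun h => ?_⟩
    · rw [k2.1, List.any_eq_true] at h
      obtain ⟨o, m, h⟩ := h
      exact ⟨o, m, by simpa [e1] using h⟩
    · refine (sp_rvApp _ _).bind fun rw t3 k3 => (sp_addUse _ _ _).bind fun u t4 k4 =>
        (sp_appL _ _).bind fun ra t5 k5 => ?_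
      have e5 : rw = rvL x.1.w := by simpa using k3.1
      have := k3.2
      have := k4.2
      have := k5.2
      subst e5
      rw [length_rvL] at this
      refine ⟨k5.1 ▸ I.pick hC hx he hp rfl (by omega) hth (fun o m => ?_) (e1 ▸ k4.1), by omega⟩
      rw [k2.1, List.any_eq_true] at h
      by_contra hc
      refine h ⟨o, m, ?_⟩
      simp only [e1, decide_eq_true_eq]
      omega

end Crest.Agent.N325.Bf
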