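import Crest.Agent.N325.Lst.ListR

/-!
# Row 325 (helper13): walks of oriented edges

The edge `e` has the two ends `2e`, `2e+1`; an oriented edge is the number `o` of its tail end, its
head end is `rv o`; `vx : ℕ → ℕ` maps ends to vertices.
-/

set_option autoImplicit false

namespace Crest.Agent.N325.Bf

/-- the other end -/
def rv (o : ℕ) : ℕ := if o % 2 = 0 then o + 1 else o - 1

@[simp] theorem rv_rv (o : ℕ) : rv (rv o) = o := by unfold rv; split_ifs <;> omega
@[simp] theorem rv_div (o : ℕ) : rv o / 2 = o / 2 := by unfold rv; split_ifs <;> omega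
theorem rv_ne (o : ℕ) : rv o ≠ o := by unfold rv; split_ifs <;> omega
theorem eq_or_rv {o o' : ℕ} (h : o / 2 = o' / 2) : o = o' ∨ o = rv o' := by
  unfold rv; split_ifs <;> omega
theorem rv_le (o : ℕ) : rv o ≤ o + 1 := by unfold rv; split_ifs <;> omega

/-- the reversed walk -/
def rvL (l : List ℕ) : List ℕ := (l.map rv).reverse

@[simp] theorem rvL_nil : rvL [] = [] := rfl
@[simp] theorem rvL_cons (o : ℕ) (l : List ℕ) : rvL (o :: l) = rvL l ++ [rv o] := by simp [rvL]
@[simp] theorem rvL_append (l m : List ℕ) : rvL (l ++ m) = rvL m ++ rvL l := by simp [rvL]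
@[simp] theorem length_rvL (l : List ℕ) : (rvL l).length = l.length := by simp [rvL]
@[simp] theorem rvL_rvL (l : List ℕ) : rvL (rvL l) = l := by
  induction l with
  | nil => rfl
  | cons o l ih => simp [ih]
theorem mem_rvL {o : ℕ} {l : List ℕ} : o ∈ rvL l ↔ rv o ∈ l := by
  simp only [rvL, List.mem_reverse, List.mem_map]
  exact ⟨fun ⟨a, h, e⟩ => by rw [← e, rv_rv]; exact h, fun h => ⟨_, h, rv_rv o⟩⟩

/-- `l` is a walk from `u` to `v` -/
def Wk (vx : ℕ → ℕ) : ℕ → List ℕ → ℕ → Prop
  | u, [], v => u = v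
  | u, o :: l, v => vx o = u ∧ Wk vx (vx (rv o)) l v

variable {vx : ℕ → ℕ}

@[simp] theorem wk_nil {u v : ℕ} : Wk vx u [] v ↔ u = v := Iff.rfl
@[simp] theorem wk_cons {u v o : ℕ} {l : List ℕ} :
    Wk vx u (o :: l) v ↔ vx o = u ∧ Wk vx (vx (rv o)) l v := Iff.rfl

theorem Wk.append {u v w : ℕ} {l m : List ℕ} (h : Wk vx u l v) (k : Wk vx v m w) :
    Wk vx u (l ++ m) w := by
  induction l generalizing u with
  | nil => exact (wk_nil.1 h) ▸ k
  | cons o l ih => exact ⟨h.1, ih h.2⟩

theorem wk_append {u w : ℕ} {l m : List ℕ} :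
    Wk vx u (l ++ m) w ↔ ∃ v, Wk vx u l v ∧ Wk vx v m w := by
  refine ⟨fun h => ?_, fun ⟨v, h, k⟩ => h.append k⟩
  induction l generalizing u with
  | nil => exact ⟨u, rfl, h⟩
  | cons o l ih =>
    obtain ⟨v, a, b⟩ := ih h.2
    exact ⟨v, ⟨h.1, a⟩, b⟩

theorem Wk.rev {u v : ℕ} {l : List ℕ} (h : Wk vx u l v) : Wk vx v (rvL l) u := by
  induction l generalizing u with
  | nil => exact (wk_nil.1 h).symm
  | cons o l ih =>
    rw [rvL_cons]
    exact (ih h.2).append ⟨rfl, by rw [rv_rv]; exact h.1⟩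

theorem Wk.unique {u v w : ℕ} {l : List ℕ} (h : Wk vx u l v) (k : Wk vx u l w) : v = w := by
  induction l generalizing u with
  | nil => exact (wk_nil.1 h).symm.trans (wk_nil.1 k)
  | cons o l ih => exact ih h.2 k.2

theorem Wk.congr {vx' : ℕ → ℕ} {u v : ℕ} {l : List ℕ} (h : Wk vx u l v)
    (e : ∀ o ∈ l, vx' o = vx o ∧ vx' (rv o) = vx (rv o)) : Wk vx' u l v := by
  induction l generalizing u with
  | nil => exact h
  | cons o l ih =>
    have := e o List.mem_cons_self
    exact ⟨this.1.trans h.1, this.2 ▸ ih h.2 fun o' k => e o' (List.mem_cons_of_mem _ k)⟩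

/-- the number of ends of the edges of `l` at `v` -/
def cnt (vx : ℕ → ℕ) (v : ℕ) : List ℕ → ℕ
  | [] => 0
  | o :: l => (if vx o = v then 1 else 0) + (if vx (rv o) = v then 1 else 0) + cnt vx v l

@[simp] theorem cnt_nil (v : ℕ) : cnt vx v [] = 0 := rfl
theorem cnt_cons (v o : ℕ) (l : List ℕ) : cnt vx v (o :: l) =
    (if vx o = v then 1 else 0) + (if vx (rv o) = v then 1 else 0) + cnt vx v l := rfl

@[simp] theorem cnt_append (v : ℕ) (l m : List ℕ) : cnt vx v (l ++ m) = cnt vx v l + cnt vx v m := by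
  induction l with
  | nil => simp
  | cons o l ih => simp only [List.cons_append, cnt_cons, ih]; omega

@[simp] theorem cnt_rvL (v : ℕ) (l : List ℕ) : cnt vx v (rvL l) = cnt vx v l := by
  induction l with
  | nil => rfl
  | cons o l ih => simp only [rvL_cons, cnt_append, cnt_cons, ih, rv_rv, cnt_nil]; omega

theorem cnt_cons' (v o : ℕ) (l : List ℕ) : cnt vx v (o :: l) = cnt vx v [o] + cnt vx v l := by
  simp [cnt_cons]

theorem cnt_le (v : ℕ) (l : List ℕ) : cnt vx v l ≤ 2 * l.length := by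
  induction l with
  | nil => simp
  | cons o l ih => rw [cnt_cons, List.length_cons]; split_ifs <;> omega

theorem cnt_pos {v o : ℕ} {l : List ℕ} (h : o ∈ l) (e : vx o = v ∨ vx (rv o) = v) :
    0 < cnt vx v l := by
  induction l with
  | nil => cases h
  | cons o' l ih =>
    rw [cnt_cons]
    rcases List.mem_cons.1 h with rfl | h
    · rcases e with e | e <;> simp [e]
    · have := ih h; omega

theorem exists_of_cnt_pos {v : ℕ} {l : List ℕ} (h : 0 < cnt vx v l) :
    ∃ o ∈ l, vx o = v ∨ vx (rv o) = v := by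
  induction l with
  | nil => simp at h
  | cons o l ih =>
    rw [cnt_cons] at h
    by_cases a : vx o = v
    · exact ⟨o, List.mem_cons_self, Or.inl a⟩
    by_cases b : vx (rv o) = v
    · exact ⟨o, List.mem_cons_self, Or.inr b⟩
    obtain ⟨o', c, d⟩ := ih (by simpa [a, b] using h)
    exact ⟨o', List.mem_cons_of_mem _ c, d⟩

/-- the list of the vertices of the ends -/
def vl (vx : ℕ → ℕ) : List ℕ → List ℕ
  | [] => []
  | o :: l => vx o :: vx (rv o) :: vl vx l

theorem count_vl (v : ℕ) (l : List ℕ) : (vl vx l).count v = cnt vx v l := by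
  induction l with
  | nil => rfl
  | cons o l ih =>
    simp only [vl, List.count_cons, ih, cnt_cons, beq_iff_eq]; omega

theorem length_vl (l : List ℕ) : (vl vx l).length = 2 * l.length := by
  induction l with
  | nil => rfl
  | cons o l ih => simp only [vl, List.length_cons, ih]; omega

variable {g : Gl}

/-- reversal of a walk, in front of `m` -/
def rvApp (l m : List ℕ) : R (List ℕ) := foldP (fun o s => rv o :: s) l m

theorem sp_rvApp (l m : List ℕ) :
    Sp g (rvApp l m) fun r t => r = rvL l ++ m ∧ t = l.length + 1 :=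
  (sp_foldP _ l m).mono fun r t h => ⟨by rw [h.1, foldl_cons_map]; rfl, h.2⟩

/-- increment -/
def inc (a : Arr ℕ) (i : ℕ) : Arr ℕ := a.set i (a.get i + 1)

theorem get_inc (a : Arr ℕ) (i j : ℕ) : (inc a i).get j = a.get j + if i = j then 1 else 0 := by
  unfold inc; rw [Arr.get_set]; split_ifs <;> simp_all

/-- count the ends of a walk -/
def addUse (vx : Arr ℕ) (l : List ℕ) (a : Arr ℕ) : R (Arr ℕ) :=
  foldP (fun o u => inc (inc u (vx.get o)) (vx.get (rv o))) l a

theorem sp_addUse (vx : Arr ℕ) (l : List ℕ) (a : Arr ℕ) :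
    Sp g (addUse vx l a) fun r t => (∀ v, r.get v = a.get v + cnt vx.get v l) ∧ t = l.length + 1 :=
  (sp_foldP _ l a).mono fun r t h => ⟨fun v => by
    rw [h.1]
    clear h
    induction l generalizing a with
    | nil => simp
    | cons o l ih => rw [List.foldl_cons, ih, get_inc, get_inc, cnt_cons]; omega, h.2⟩

end Crest.Agent.N325.Bf
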